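import Crest.Agent.R106.TR.Force
import Crest.Agent.R106.Liou

/-! Row 106, block TR: the transport equation for a given smooth field. -/

set_option autoImplicit false

noncomputable section

namespace Crest.Agent.R106.TR

open MeasureTheory Set Crest.AnalysisR.VecCalc3 Crest.AnalysisR.PDE.RVM Crest.Agent.R106.HR
open scoped ContDiff

/-- `f (t, z) = f₀ (X (0, t, z))` with the flow `X` of `Liou.exists_flow` for `HR.vf A K` (bounded derivative: `A` has compact support). -/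
theorem exists_tr {R : ℝ} {A : PZ → K6 →L[ℝ] R3} {f₀ : Z6 → ℝ} {K : PX → K6} (hA : Force R A) (hK : ContDiff ℝ ∞ K)
    (hf : ContDiff ℝ ∞ f₀) (hs : ∀ z : Z6, R ≤ ‖z.1‖ ∨ R ≤ ‖z.2‖ → f₀ z = 0) :
    ∃ f : PZ → ℝ, ContDiff ℝ ∞ f ∧ (∀ z, f (0, z) = f₀ z) ∧ (∀ p, fderiv ℝ f p (1, HR.vf A K p) = 0) ∧
      (∀ p : PZ, R ≤ ‖p.2.2‖ → f p = 0) ∧ (∀ p : PZ, R + |p.1| ≤ ‖p.2.1‖ → f p = 0) ∧
      ((∀ z, 0 ≤ f₀ z) → ∀ p, 0 ≤ f p) := by
  have s1 : ContDiff ℝ ∞ fun p : PZ => relVel p.2.2 := relVel_smooth.comp contDiff_snd.snd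
  have s2 : ContDiff ℝ ∞ fun p : PZ => A p (K (px p)) := hA.sm.clm_apply (hK.comp px.contDiff)
  have hV : ContDiff ℝ ∞ (HR.vf A K) := s1.prodMk s2
  have c2 : HasCompactSupport fun p : PZ => A p (K (px p)) :=
    hA.cs.mono fun p hp h => hp (by simp [h])
  obtain ⟨C₁, h1⟩ := fderiv_relVel_bdd
  obtain ⟨C₂, h2⟩ := (s2.continuous_fderiv (by simp)).bounded_above_of_compact_support (c2.fderiv ℝ)
  let pv : PZ →L[ℝ] R3 := (ContinuousLinearMap.snd ℝ R3 R3).comp (ContinuousLinearMap.snd ℝ ℝ Z6)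
  have hb : ∀ p, ‖fderiv ℝ (HR.vf A K) p‖ ≤ max (C₁ * ‖pv‖) C₂ := fun p => by
    have d1 := (relVel_smooth.differentiable (by simp) (pv p)).hasFDerivAt.comp p pv.hasFDerivAt
    have d2 : HasFDerivAt (HR.vf A K) _ p := d1.prodMk (s2.differentiable (by simp) p).hasFDerivAt
    rw [d2.fderiv, ContinuousLinearMap.opNorm_prod, Prod.norm_mk]
    exact max_le_max ((ContinuousLinearMap.opNorm_comp_le _ _).trans (mul_le_mul_of_nonneg_right (h1 _) (norm_nonneg _))) (h2 p)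
  obtain ⟨X, hX, h0, hd, hg, hu⟩ := Liou.exists_flow hV hb
  have hF : ContDiff ℝ ∞ fun p : PZ => f₀ (X (0, p.1, p.2)) := hf.comp (hX.comp (contDiff_const.prodMk contDiff_id))
  refine ⟨fun p => f₀ (X (0, p.1, p.2)), hF, fun z => by simp [h0], fun p => ?_, fun p hp => hs _ (Or.inr ?_),
    fun p hp => hs _ (Or.inl ?_), fun h p => h _⟩
  · have d1 := (hasDerivAt_id p.1).prodMk (hd p.1 p.1 p.2)
    have d2 := (hF.differentiable (by simp) p).hasFDerivAt.comp_hasDerivAt_of_eq p.1 d1 (by simp [h0])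
    have e : ((fun p : PZ => f₀ (X (0, p.1, p.2))) ∘ fun r => (id r, X (r, p.1, p.2))) = fun _ => f₀ (X (0, p.1, p.2)) := by
      funext r; simp [hg]
    rw [e, h0] at d2
    exact d2.unique (hasDerivAt_const _ _)
  · have := hu (fun s => (p.2.1 + (s - p.1) • relVel p.2.2, p.2.2)) (fun s => by
      have d1 := (((hasDerivAt_id s).sub_const p.1).smul_const (relVel p.2.2)).const_add p.2.1
      have d2 := d1.prodMk (hasDerivAt_const s p.2.2)
      have e : A (s, p.2.1 + (s - p.1) • relVel p.2.2, p.2.2) = 0 := hA.supp _ hp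
      simpa [HR.vf, e] using d2) 0 p.1
    simp only [sub_self, zero_smul, add_zero, Prod.mk.eta] at this
    rw [← this]; exact hp
  · have d1 : ∀ s, HasDerivAt (fun r => (X (r, p.1, p.2)).1) (relVel (X (s, p.1, p.2)).2) s := fun s =>
      (ContinuousLinearMap.fst ℝ R3 R3).hasFDerivAt.comp_hasDerivAt s (hd s p.1 p.2)
    have d2 := (convex_univ (𝕜 := ℝ) (E := ℝ)).norm_image_sub_le_of_norm_hasDerivWithin_le (C := 1)
      (fun s _ => (d1 s).hasDerivWithinAt) (fun s _ => norm_relVel_le _) (mem_univ 0) (mem_univ p.1)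
    rw [h0, sub_zero, one_mul, Real.norm_eq_abs] at d2
    linarith [norm_sub_norm_le p.2.1 (X (0, p.1, p.2)).1]

end Crest.Agent.R106.TR
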