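import Crest.Agent.R106.TR.Pic
import Crest.Agent.R106.TR.Glue
import Crest.Agent.R106.HR.Main
import Crest.Agent.R106.GS.Main

/-! Row 106, block TR: `S_TR` from the convergence of the Picard iteration. -/

set_option autoImplicit false

noncomputable section

namespace Crest.Agent.R106.TR

open MeasureTheory Set Crest.AnalysisR.VecCalc3 Crest.AnalysisR.PDE.RVM Crest.Agent.R106.HR
open scoped ContDiff

theorem s_tr_of (h : S_CONV) : S_TR := by
  intro f₀ E₀ B₀ had P T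
  obtain ⟨G, R₀, hG, hG0, hGd⟩ := exists_G P
  obtain ⟨R, hR, hD⟩ := dat_of_adm had R₀
  have hT := abs_nonneg T
  have hT' := le_abs_self T
  obtain ⟨A, hA, hAG⟩ := exists_force (R := R) hG.1 (fun v hv => hG0 v (hR.trans hv)) hGd (|R| + (|T| + 2))
  obtain ⟨fs, Ks, hP⟩ := exists_pic hA hD
  obtain ⟨g, L, hC, -⟩ := h R (|T| + 2) A _ _ fs Ks (by linarith) hA hD hP
  obtain ⟨χ, hχ, hχ'⟩ := exists_ext (Y := Z6) (F := ℝ) (T := |T| + 2) (S := |T| + 1) (by linarith)
  obtain ⟨ψ, hψ, hψ'⟩ := exists_ext (Y := R3) (F := K6) (T := |T| + 2) (S := |T| + 1) (by linarith)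
  obtain ⟨hf, -⟩ := hχ' g hC.sf
  obtain ⟨hK, hK'⟩ := hψ' L hC.sK
  have hS := Slab.fst' (hK' hC.bK)
  have h0 : |(0 : ℝ)| ≤ |T| + 1 := by rw [abs_zero]; linarith
  have habs : ∀ t : ℝ, 0 ≤ t → t ≤ T → |t| < |T| + 1 := fun t h1 h2 => by rw [abs_of_nonneg h1]; linarith
  have ev : ∀ {Y : Type} [TopologicalSpace Y] (z : ℝ × Y), |z.1| < |T| + 1 → ∀ᶠ w in nhds z, |w.1| < |T| + 1 :=
    fun z hz => (isOpen_lt (continuous_abs.comp continuous_fst) continuous_const).mem_nhds hz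
  refine ⟨G, fun p => χ p.1 • g p, fun p => (ψ p.1 • L p).1, fun p => (ψ p.1 • L p).2, hG, hf, hS.1, hS.2,
    fun x v => ?_, fun x => ?_, fun x => ?_, fun z h1 h2 => ?_, fun t h1 h2 x => ?_⟩
  · simp [hχ 0 h0, hC.df]
  · simp [hψ 0 h0, hC.dK]
  · simp [hψ 0 h0, hC.dK]
  · have hz := habs _ h1 h2
    have e1 : (fun p : PZ => χ p.1 • g p) =ᶠ[nhds z] g := (ev z hz).mono fun w hw => by simp [hχ _ hw.le]
    rw [e1.fderiv_eq]
    by_cases hx : ‖z.2.1‖ ≤ |R| + (|T| + 2)
    · have := hC.vl z (by linarith)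
      rw [HR.vf, hAG z (by have := abs_nonneg R; linarith) hx] at this
      simpa [vfG, hψ _ hz.le] using this
    · have e2 : g =ᶠ[nhds z] fun _ => 0 := by
        have : ∀ᶠ w : PZ in nhds z, |R| + (|T| + 2) < ‖w.2.1‖ :=
          (isOpen_lt continuous_const (by fun_prop)).mem_nhds (not_le.1 hx)
        filter_upwards [ev z hz, this] with w h3 h4
        exact hC.sx w (by linarith) (by have := le_abs_self R; linarith)
      simp [e2.fderiv_eq]
  · have hz := habs _ h1 h2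
    have e1 : (fun p : PX => ψ p.1 • L p) =ᶠ[nhds (t, x)] L := (ev (t, x) hz).mono fun w hw => by simp [hψ _ hw.le]
    refine maxwellAt_of_MxL (f := fun p => χ p.1 • g p) (K := fun p => ψ p.1 • L p) (hK.differentiable (by simp) _) ?_
    rw [e1.fderiv_eq]
    have := hC.mx (t, x) (by simp only; linarith)
    simpa [rho, cur, hχ _ hz.le] using this

theorem s_tr : S_TR := s_tr_of (s_conv GS.s_GS0 GS.s_LOG)

end Crest.Agent.R106.TR
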