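import Crest.Agent.R106.TR.Flow
import Crest.Agent.R106.TR.Cons
import Crest.Agent.R106.TR.Max

/-! Row 106, block TR: existence of the Picard iteration. -/

set_option autoImplicit false

noncomputable section

namespace Crest.Agent.R106.TR

open MeasureTheory Set Crest.AnalysisR.VecCalc3 Crest.AnalysisR.PDE.RVM Crest.Agent.R106.HR
open scoped ContDiff

theorem exists_step {R : ℝ} {A : PZ → K6 →L[ℝ] R3} {f₀ : Z6 → ℝ} {K₀ : R3 → K6} (hA : Force R A) (hD : Dat R f₀ K₀)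
    (K : {K : PX → K6 // ContDiff ℝ ∞ K}) : ∃ (f : PZ → ℝ) (K' : {K : PX → K6 // ContDiff ℝ ∞ K}),
      ContDiff ℝ ∞ f ∧ (∀ z, f (0, z) = f₀ z) ∧ (∀ p, fderiv ℝ f p (1, HR.vf A K.1 p) = 0) ∧
      (∀ p : PZ, R ≤ ‖p.2.2‖ → f p = 0) ∧ (∀ p : PZ, R + |p.1| ≤ ‖p.2.1‖ → f p = 0) ∧
      ((∀ z, 0 ≤ f₀ z) → ∀ p, 0 ≤ f p) ∧ (∀ x, K'.1 (0, x) = K₀ x) ∧
      ∀ q, MxL (fderiv ℝ K'.1 q) (rho f q) (cur f q) := by
  obtain ⟨f, h1, h2, h3, h4, h5, h6⟩ := exists_tr hA K.2 hD.sf hD.supp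
  have hc := cons (R := R) h1 (flx_smooth hA K.2 h1) (fun p hp => ⟨h4 p hp, by simp [flx, h4 p hp]⟩)
    (fun p => vl_flx hA K.2 h1 p (h3 p))
  obtain ⟨K', k1, k2, k3⟩ := exists_max (rho_smooth h1 h4) (cur_smooth h1 h4) hD.sK hc
    (fun x => by rw [hD.dE x]; simp [rho, h2]) hD.dB
  exact ⟨f, ⟨K', k1⟩, h1, h2, h3, h4, h5, h6, k2, k3⟩

theorem exists_pic {R : ℝ} {A : PZ → K6 →L[ℝ] R3} {f₀ : Z6 → ℝ} {K₀ : R3 → K6} (hA : Force R A) (hD : Dat R f₀ K₀) :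
    ∃ f K, Pic R A f₀ K₀ f K := by
  choose F N h1 h2 h3 h4 h5 h6 h7 h8 using exists_step hA hD
  let K : ℕ → {K : PX → K6 // ContDiff ℝ ∞ K} := fun n => N^[n] ⟨0, contDiff_const⟩
  have hK : ∀ n, K (n + 1) = N (K n) := fun n => Function.iterate_succ_apply' N n _
  exact ⟨fun n => F (K n), fun n => (K n).1, fun n => h1 _, fun n => (K n).2, rfl, fun n => h2 _,
    fun n x => by rw [hK]; exact h7 _ x, fun n => h3 _, fun n => h4 _, fun n => h5 _, fun h n => h6 _ h,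
    fun n q => by rw [hK]; exact h8 _ q⟩

end Crest.Agent.R106.TR
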